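import Vale.Agent.P011.D4W.H619.Step
import Vale.Agent.P011N.D1.D4W.H684.Flip
import Vale.Agent.P011N.D1.D4W.H684.StepO
import Vale.Agent.P011N.D1.D4Y.H691.Na

/-!
Version for big subgroups of `P011.D4W.H619.Step`.
-/

open NumberField IsDedekindDomain Topology Filter

set_option linter.unusedSectionVars false

namespace Vale.Agent.P011.D4W.H619

open Vale.Agent.P011.Arith Vale.Agent.P011.MPQ Vale.Agent.P011.D4 Vale.Agent.P011.D4.Oct
  Vale.Agent.P011.E6 Vale.Agent.P011.D4X Vale.Agent.P011.D4X.H691 Vale.Agent.P011.D4Y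
  Vale.Agent.P011.D4W.H183

section step

variable {k L E : Type} [Field k] [NumberField k] [Field L] [NumberField L] [Field E]
  [Algebra k L] [Algebra k E] [Algebra L E] [IsScalarTower k L E] [NeZero (2 : E)]
  {ρ σ ι : E ≃ₐ[k] E} {α : E} {a b c : kˣ} {q : Lˣ} (H : HyI ρ σ ι α a b c q)

include H

/-- **The elements which change the class at one bad prime.** -/
theorem exists_flipB (h : Trip a c b (gi : Oct a b c) gl gj)
    (hle : ∀ {b' c' : kˣ} {j l : Oct a b c} (h : Trip a b' c' gi j l) {z : ATI ρ σ ι α a b c q},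
      z ∈ stabI ρ σ ι α q h → kapI z ∈ PosC k L a → kapI z ∈ NV k a q →
        z ∈ H.NAB ⊔ stab0I ρ σ ι α a b c q) (v0 : HeightOneSpectrum (𝓞 k)) :
    ∃ u : ATI ρ σ ι α a b c q, u ∈ stabI ρ σ ι α q h ∧
      u ∈ H.NAB ⊔ stab0I ρ σ ι α a b c q ∧ kapI u ∈ PosC k L a ∧
      ∀ v w, Bad a q v w → (kapI u ∈ NF (up L a) ⊔ LS (w.valuation L) ↔ v ≠ v0) := by
  classical
  have : NumberField E := H.numberField
  obtain ⟨e1, e2, h1, h2⟩ := exists_e12 H
  have hV : (VB k a q).Finite := VB_finite a q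
  obtain ⟨x, y, s, w, hrel, hlim⟩ := exists_pars hV a b e1 e2
    (fun p => if p = Sum.inl v0 then 0 else 1) (fun p => if p = Sum.inl v0 then 1 else 0)
    (fun p => if p = Sum.inl v0 then ((b : k) ^ 2)⁻¹ else 1)
    (fun p => if p = Sum.inl v0 then ⟨0, 0, 1, 0⟩ else 1) (by
      intro p _
      have hb := b.ne_zero
      by_cases hp : p = Sum.inl v0
      · simp only [if_pos hp, nrd, np]
        field_simp
        ring
      · simp only [if_neg hp, np]
        simp [nrd])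
  obtain ⟨t, ht⟩ := exists_seqA (k := E) (TS_finite (ov_finite (E := E) hV))
    (fun Q => if rsP k Q = Sum.inl v0 then
      ρ (algebraMap L E (q : L)) / (((up E b : Eˣ) : E) * ((up E c : Eˣ) : E)) else 1)
  -- the limit
  have hG : AO (SV E (VB k a q)) atTop (fun n => Gv (up E a) (up E b) (up E c) α
      (algebraMap L E (q : L)) (ρ (algebraMap L E (q : L))) (ρ (ρ (algebraMap L E (q : L))))
      (algebraMap k E (x n)) (algebraMap k E (y n)) (algebraMap k E (s n)) (t n) (qup E (w n)))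
      (ep α * oup E (gl : Oct a b c)) := by
    have e0 : (ep α * oup E (gl : Oct a b c) : OctL E a b c) =
        ⟨0, ⟨1 / 2, 1 / (2 * α), 0, 0⟩⟩ := by
      rw [oup_gl]
      exact ep_mul_gl α
    rw [e0]
    refine AO_glue fun Q hQ => ?_
    obtain ⟨l1, l2, l3, l4, l5, l6, l7⟩ := hlim _ (rsP_mem hQ)
    have l8 := ht Q hQ
    have l4' := AE_map l4
    have l5' := AE_map l5
    have l6' := AE_map l6
    have l7' := AE_map l7
    by_cases hp : rsP k Q = Sum.inl v0
    · simp only [if_pos hp] at l1 l2 l3 l4' l5' l6' l7' l8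
      have l1' := AE_map l1
      have l2' := AE_map l2
      have l3' := AE_map l3
      rw [map_zero] at l1'
      rw [map_one] at l2'
      rw [← Gv_flip (a := up E a) (b := up E b) (c := up E c) (NeZero.ne 2) H.α2 H.hq]
      refine AO_Gv α _ _ _ l1' l2' ?_ l8 ⟨?_, ?_, ?_, ?_⟩
      · have e1 : (((up E b : Eˣ) : E) ^ 2)⁻¹ = algebraMap k E ((b : k) ^ 2)⁻¹ := by
          rw [map_inv₀, map_pow]
          rfl
        rw [e1]
        exact l3'
      · rw [map_zero] at l4'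
        exact l4'
      · rw [map_zero] at l5'
        exact l5'
      · rw [map_one] at l6'
        exact l6'
      · rw [map_zero] at l7'
        exact l7'
    · simp only [if_neg hp] at l1 l2 l3 l4' l5' l6' l7' l8
      have l1' := AE_map l1
      have l2' := AE_map l2
      have l3' := AE_map l3
      rw [map_one] at l1'
      rw [map_zero] at l2'
      rw [map_one] at l3'
      rw [← Gv_one (a := up E a) (b := up E b) (c := up E c) (algebraMap L E (q : L))
        (ρ (algebraMap L E (q : L))) (ρ (ρ (algebraMap L E (q : L))))]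
      refine AO_Gv α _ _ _ l1' l2' l3' l8 ⟨?_, ?_, ?_, ?_⟩
      · rw [QuaternionAlgebra.re_one, map_one] at l4'
        exact l4'
      · rw [QuaternionAlgebra.imI_one, map_zero] at l5'
        exact l5'
      · rw [QuaternionAlgebra.imJ_one, map_zero] at l6'
        exact l6'
      · rw [QuaternionAlgebra.imK_one, map_zero] at l7'
        exact l7'
  -- the elements
  choose z1 m1 k1 g1 using fun n => exists_z1 (c := c) H h1 h2 (hrel n)
  have hz2 : ∀ n, ∃ z : ATI ρ σ ι α a b c q, np c e1 e2 (x n) (y n) ≠ 0 →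
      (∀ τ : k →+* ℝ, 0 < τ (np c e1 e2 (x n) (y n))) → z ∈ stabI ρ σ ι α q h ∧
      (∀ κ : Lˣ, nx c q (x n) (y n) * κ = 1 → kapI z = κ) ∧
      z.1 (ep α * oup E (gl : Oct a b c)) =
        V1 (up E a) (up E b) (up E c) α (algebraMap k E (x n)) (algebraMap k E (y n)) := by
    intro n
    by_cases hc : np c e1 e2 (x n) (y n) ≠ 0 ∧ ∀ τ : k →+* ℝ, 0 < τ (np c e1 e2 (x n) (y n))
    · obtain ⟨z, hz⟩ := exists_z2 H h h1 h2 hc.1 hc.2
      exact ⟨z, fun _ _ => hz⟩
    · exact ⟨1, fun h3 h4 => absurd ⟨h3, h4⟩ hc⟩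
  choose z2 hz2 using hz2
  -- the conditions
  have hinf : ∀ u : InfinitePlace k, AE {paAbv (Sum.inr u : PA k)} atTop x 1 ∧
      AE {paAbv (Sum.inr u : PA k)} atTop y 0 := by
    intro u
    obtain ⟨l1, l2, -⟩ := hlim (Sum.inr u) inr_mem_TS
    simp only [reduceCtorEq, if_false] at l1 l2
    exact ⟨l1, l2⟩
  have hnp : ∀ u : InfinitePlace k, AE {paAbv (Sum.inr u : PA k)} atTop
      (fun n => np c e1 e2 (x n) (y n)) 1 := by
    intro u
    have h3 := AE_np c e1 e2 (hinf u).1 (hinf u).2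
    have h4 : np c e1 e2 (1 : k) 0 = 1 := by simp [np]
    rwa [h4] at h3
  have a1 : ∀ᶠ n in atTop, np c e1 e2 (x n) (y n) ≠ 0 := by
    obtain ⟨u⟩ : Nonempty (InfinitePlace k) := inferInstance
    exact (hnp u).eventually_ne (Set.singleton_nonempty _) one_ne_zero
  have a2 : ∀ᶠ n in atTop, ∀ τ : k →+* ℝ, 0 < τ (np c e1 e2 (x n) (y n)) := by
    rw [eventually_all]
    exact fun τ => ev_pos τ (hnp _)
  have a3 : ∀ b' : kˣ, ∀ᶠ n in atTop, ∀ φ : L →+* ℝ, 0 < φ (nx b' q (x n) (y n)) := by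
    intro b'
    rw [eventually_all]
    intro φ
    refine ev_pos φ ?_
    have h3 := AE_nx (L := L)
      (Q := Sum.inr (InfinitePlace.mk (Complex.ofRealHom.comp φ))) b' q (hinf _).1 (hinf _).2
    rwa [nx_one] at h3
  have a4 : ∀ b' : kˣ, ∀ᶠ n in atTop, ∀ w' ∈ ov L (VB k a q), ∀ κ : Lˣ,
      (κ : L) = nx b' q (x n) (y n) → κ * (if rsP k (Sum.inl w' : PA L) = Sum.inl v0 then
        q * up L (-b') else 1) ∈ LS (w'.valuation L) := by
    intro b'
    rw [eventually_all_finite (ov_finite hV)]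
    intro w' hw'
    obtain ⟨l1, l2, -⟩ := hlim _ (rsP_mem (inl_mem_TS.2 hw'))
    by_cases hp : rsP k (Sum.inl w' : PA L) = Sum.inl v0
    · simp only [if_pos hp] at l1 l2 ⊢
      have h3 := AE_nx (L := L) b' q l1 l2
      rw [nx_flip] at h3
      exact ev_LS h3
    · simp only [if_neg hp] at l1 l2 ⊢
      have h3 := AE_nx (L := L) b' q l1 l2
      rw [nx_one, ← Units.val_one] at h3
      exact ev_LS h3
  have a5 := mem_of_nearB H hle (g := fun n => z1 n * z2 n) (t := t)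
    (AO_congr' hG (by
      filter_upwards [a1, a2] with n b1 b2
      obtain ⟨-, -, b3⟩ := hz2 n b1 b2
      change _ = t n • (z1 n).1 ((z2 n).1 _)
      rw [b3, g1]))
  obtain ⟨n, b1, b2, b3, b3', b4, b4', b5⟩ :=
    (a1.and (a2.and ((a3 b).and ((a3 c).and ((a4 b).and ((a4 c).and a5)))))).exists
  obtain ⟨m2, k2, -⟩ := hz2 n b1 b2
  -- the multipliers
  have n1 : nx b q (x n) (y n) ≠ 0 := by
    intro h0
    have h3 := np_eq H h1 h2 b (x n) (y n)
    rw [h0, map_zero, zero_mul, zero_mul, map_eq_zero] at h3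
    have h4 := hrel n
    rw [h3, zero_mul, mul_zero] at h4
    exact zero_ne_one h4
  have n2 : nx c q (x n) (y n) ≠ 0 := by
    intro h0
    have h3 := np_eq H h1 h2 c (x n) (y n)
    rw [h0, map_zero, zero_mul, zero_mul, map_eq_zero] at h3
    exact b1 h3
  obtain ⟨ν1, hν1⟩ : ∃ ν : Lˣ, (ν : L) = nx b q (x n) (y n) := ⟨Units.mk0 _ n1, rfl⟩
  obtain ⟨ν2, hν2⟩ : ∃ ν : Lˣ, (ν : L) = nx c q (x n) (y n) := ⟨Units.mk0 _ n2, rfl⟩
  have hκ1 : kapI (z1 n) = ν1⁻¹ := kapI_eq (k1 n _ (by rw [← hν1, Units.mul_inv]))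
  have hκ2 : kapI (z2 n) = ν2⁻¹ := k2 _ (by rw [← hν2, Units.mul_inv])
  have p1 : kapI (z1 n) ∈ PosC k L a := by
    rw [hκ1]
    exact Subgroup.inv_mem _ (pos_PosC fun φ _ => by rw [hν1]; exact b3 φ)
  have p2 : kapI (z2 n) ∈ PosC k L a := by
    rw [hκ2]
    exact Subgroup.inv_mem _ (pos_PosC fun φ _ => by rw [hν2]; exact b3' φ)
  have hov : ∀ {v w}, Bad a q v w → w ∈ ov L (VB k a q) ∧
      rsP k (Sum.inl w : PA L) = Sum.inl v := fun {v w} hb =>
    ⟨⟨v, ⟨w, hb⟩, hb.1⟩, rsP_inl hb.1⟩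
  have hinj : ∀ {v : HeightOneSpectrum (𝓞 k)}, (Sum.inl v : PA k) = Sum.inl v0 ↔ v = v0 :=
    Sum.inl_injective.eq_iff
  have c1 : ∀ v w, Bad a q v w → v = v0 → ν1 * (q * up L (-b)) ∈ LS (w.valuation L) ∧
      ν2 * (q * up L (-c)) ∈ LS (w.valuation L) := by
    intro v w' hb hv
    obtain ⟨o1, o2⟩ := hov hb
    have h3 := b4 w' o1 ν1 hν1
    have h4 := b4' w' o1 ν2 hν2
    rw [o2, if_pos (hinj.2 hv)] at h3 h4
    exact ⟨h3, h4⟩
  have c2 : ∀ v w, Bad a q v w → v ≠ v0 → ν1 ∈ LS (w.valuation L) ∧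
      ν2 ∈ LS (w.valuation L) := by
    intro v w' hb hv
    obtain ⟨o1, o2⟩ := hov hb
    have h3 := b4 w' o1 ν1 hν1
    have h4 := b4' w' o1 ν2 hν2
    rw [o2, if_neg fun h5 => hv (hinj.1 h5), mul_one] at h3 h4
    exact ⟨h3, h4⟩
  have hP0 : kapI (z1 n * z2 n) ∈ P0 k a q := by
    refine ⟨?_, fun v w' hb => ?_⟩
    · rw [kapI_mul]
      exact Subgroup.mul_mem _ p1 p2
    · rw [kapI_mul, hκ1, hκ2, ← mul_inv]
      refine inv_mem ?_
      by_cases hv : v = v0
      · exact mem_flip2 hb (c1 v w' hb hv).1 (c1 v w' hb hv).2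
      · exact Subgroup.mem_sup_right (mul_mem (c2 v w' hb hv).1 (c2 v w' hb hv).2)
  refine ⟨z2 n, m2, ?_, p2, fun v w' hb => ?_⟩
  · have h3 : z2 n = (z1 n)⁻¹ * (z1 n * z2 n) := by group
    rw [h3]
    exact Subgroup.mul_mem _ (Subgroup.inv_mem _ (Subgroup.mem_sup_right (m1 n))) (b5 hP0)
  · rw [hκ2, Subgroup.inv_mem_iff]
    constructor
    · rintro h3 rfl
      exact not_mem_flip hb (c1 v w' hb rfl).2 h3
    · intro hv
      exact Subgroup.mem_sup_right (c2 v w' hb hv).2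

/-- **The congruence of the centraliser of the frame `(i, l, j)`.** -/
theorem le_swapB (h : Trip a c b (gi : Oct a b c) gl gj)
    (hle : ∀ {b' c' : kˣ} {j l : Oct a b c} (h : Trip a b' c' gi j l) {z : ATI ρ σ ι α a b c q},
      z ∈ stabI ρ σ ι α q h → kapI z ∈ PosC k L a → kapI z ∈ NV k a q →
        z ∈ H.NAB ⊔ stab0I ρ σ ι α a b c q)
    {z : ATI ρ σ ι α a b c q} (hz : z ∈ stabI ρ σ ι α q h) (hP : kapI z ∈ PosC k L a) :
    z ∈ H.NAB ⊔ stab0I ρ σ ι α a b c q :=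
  flip_endB H h (fun h1 h2 h3 => hle h h1 h2 h3) (fun v0 _ => exists_flipB H h hle v0) hz hP

end step

end Vale.Agent.P011.D4W.H619
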