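import Vale.Agent.P011.D4W.H619.StepT
import Vale.Agent.P011N.D1.D4W.H619.Step
import Vale.Agent.P011N.D1.D4W.H7.F4
import Vale.Agent.P011N.D1.D4W.H7.Part
import Vale.Agent.P011N.D1.D4W.H7.Swap
import Vale.Agent.P011N.D1.D4Y.H691.Na

/-!
Version for big subgroups of `P011.D4W.H619.StepT`.
-/

open NumberField

namespace Vale.Agent.P011.D4W.H619

/-- **Step T.** -/
theorem leSwapB {k L : Type} [Field k] [NumberField k] [Field L] [NumberField L] [Algebra k L]
    (hS : H7.ShortAllB k L) : H7.LeSwapB k L := by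
  intro E _ _ _ _ _ ρ σ ι α a b c q H hX z hz hP
  exact le_swapB H H7.trip_swap (fun h _ h1 h2 h3 => H7.stabV_le'B hS H hX h h1 h2 h3) hz hP

end Vale.Agent.P011.D4W.H619
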